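import Vale.Agent.P237.Quant.TailData.N30.tailN30N0Part0
import Vale.Agent.P237.Quant.TailData.N30.tailN30N0Part1
import Vale.Agent.P237.Quant.TailData.N30.tailN30N0Part2
import Vale.Agent.P237.Quant.TailData.N30.tailN30N0Part3

/-!
Tail calibration tailN30N0 in dimension 30. The check. Generated data, checked by the kernel.
-/

set_option maxRecDepth 100000
set_option linter.all false

namespace Vale.Agent.P237.Quant.TailData

open TailCert


/-- The calibration. -/
noncomputable def tailN30N0 : Cfg :=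
  tailN30N0Base.withIvals (List.flatten [tailN30N0L0, tailN30N0L1, tailN30N0L2, tailN30N0L3, tailN30N0L4, tailN30N0L5, tailN30N0L6, tailN30N0L7, tailN30N0L8, tailN30N0L9, tailN30N0L10, tailN30N0L11, tailN30N0L12, tailN30N0L13])

theorem tailN30N0_parts : [tailN30N0L0, tailN30N0L1, tailN30N0L2, tailN30N0L3, tailN30N0L4, tailN30N0L5, tailN30N0L6, tailN30N0L7, tailN30N0L8, tailN30N0L9, tailN30N0L10, tailN30N0L11, tailN30N0L12, tailN30N0L13].Forall fun l => tailN30N0Base.partUsed tailN30N0Used l = true := by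
  simp only [List.forall_cons, List.Forall]
  exact ⟨tailN30N0L0_ok, tailN30N0L1_ok, tailN30N0L2_ok, tailN30N0L3_ok, tailN30N0L4_ok, tailN30N0L5_ok, tailN30N0L6_ok, tailN30N0L7_ok, tailN30N0L8_ok, tailN30N0L9_ok, tailN30N0L10_ok, tailN30N0L11_ok, tailN30N0L12_ok, tailN30N0L13_ok⟩

theorem tailN30N0_check : tailN30N0.check = true :=
  Cfg.check_of_parts (by decide +kernel) tailN30N0_parts

end Vale.Agent.P237.Quant.TailData
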