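import Vale.Agent.P237.Quant.TailPartsLink
import Vale.Agent.P237.Quant.RowTables
import Vale.Agent.P237.Quant.EnvelopeTableData.N26
import Vale.Agent.P237.Quant.TailData.N30.tailN30P0
import Vale.Agent.P237.Quant.TailData.N30.tailN30P1
import Vale.Agent.P237.Quant.TailData.N30.tailN30P2
import Vale.Agent.P237.Quant.TailData.N30.tailN30P3
import Vale.Agent.P237.Quant.TailData.N30.tailN30N0
import Vale.Agent.P237.Quant.TailData.N30.tailN30N1

/-!
The tail inequalities of the rows of both sides in dimension 30. Generated.
-/

namespace Vale.Agent.P237.Quant

open TailCert TailData

/-- The tail inequalities of `negRow14` in dimension 30. -/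
theorem negRow14_tailAt30 : negRow14.TailAt 29 := by
  intro P hP
  simp only [negRow14, binsOf, List.mem_cons, List.not_mem_nil, or_false] at hP
  rcases hP with rfl | rfl
  · exact tailBin_negParts tailN30N0_check tailN30N0_parts envTable30_check (by decide +kernel)
  · exact tailBin_negParts tailN30N1_check tailN30N1_parts envTable30_check (by decide +kernel)

/-- The tail inequalities of `posRow30` in dimension 30. -/
theorem posRow30_tailAt30 : posRow30.TailAt 29 := by
  intro P hP
  simp only [posRow30, posRowB, posCuts14, posCuts16, binsOf, List.mem_cons, List.not_mem_nil, or_false] at hP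
  rcases hP with rfl | rfl | rfl | rfl
  · exact tailBin_posParts tailN30P0_check tailN30P0_parts envTable30_check (by decide +kernel)
  · exact tailBin_posParts tailN30P1_check tailN30P1_parts envTable30_check (by decide +kernel)
  · exact tailBin_posParts tailN30P2_check tailN30P2_parts envTable30_check (by decide +kernel)
  · exact tailBin_posParts tailN30P3_check tailN30P3_parts envTable30_check (by decide +kernel)

end Vale.Agent.P237.Quant
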